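import Vale.Agent.P241.H445.Grp

set_option linter.all false

namespace Vale.Agent.P241.F

open Based (conj mem_conj conj_conj conj_one conj_mono)

section

variable {p : ℕ} [hp : Fact p.Prime] {K : ℕ → Homology} {T : ℕ → Tel p}
  (hab : ∀ A : FiniteGrp.{0}, IsPGroup p A → IsMulCommutative A → ∀ n r,
    Smith (K (n + r)) (K n) (⊥ : Subgroup A) ↔ Group.rank A ≤ r)
include hab

/-- Necessity of the chain condition. -/
theorem type_le (G : FiniteGrp.{0}) (hG : IsPGroup p G) {X : GCx G} (hX : X.IsFin)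
    {θ : Subgroup G → ℕ∞} (h : ∀ A j, FixAcyclic (K j) X A ↔ (j : ℕ∞) < θ A)
    {A B : Subgroup G} (hAB : A ≤ B) : θ A ≤ θ B + ell (A.subgroupOf B) := by
  by_cases hB : θ B = ⊤
  · rw [hB, top_add]; exact le_top
  obtain ⟨b, hb⟩ := ENat.ne_top_iff_exists.1 hB
  have h1 : ¬ FixAcyclic (K b) X B := by rw [h, hb]; exact lt_irrefl _
  have h2 : ¬ FixAcyclic (K b) (rs X B) ⊤ := by
    intro h3
    apply h1
    rw [← rs_acyclic (K b) X (le_refl B), Subgroup.subgroupOf_self]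
    exact h3
  have h3 := smith_of_ell_le K hab (.of B) (hG.to_subgroup B) (A.subgroupOf B) b
    (ell (A.subgroupOf B)) le_rfl
  have h4 : ¬ FixAcyclic (K (b + ell (A.subgroupOf B))) X A := by
    intro h5
    exact h2 (h3 (rs X B) (rs_isFin hX B) ((rs_acyclic _ X hAB).2 h5))
  rw [h, not_lt] at h4
  rw [← hb]
  exact_mod_cast h4

omit hab in
theorem type_conj (G : FiniteGrp.{0}) {X : GCx G}
    {θ : Subgroup G → ℕ∞} (h : ∀ A j, FixAcyclic (K j) X A ↔ (j : ℕ∞) < θ A)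
    (A : Subgroup G) (g : G) : θ (conj g A) = θ A := by
  have key : ∀ j : ℕ, (j : ℕ∞) < θ (conj g A) ↔ (j : ℕ∞) < θ A := fun j => by
    rw [← h, ← h]; exact conj_acyclic (K j) X A g
  refine le_antisymm ?_ ?_
  · by_contra hlt
    push Not at hlt
    obtain ⟨a, ha⟩ := ENat.ne_top_iff_exists.1 hlt.ne_top
    rw [← ha] at hlt
    have := (key a).1 hlt
    rw [← ha] at this
    exact lt_irrefl _ this
  · by_contra hlt
    push Not at hlt
    obtain ⟨a, ha⟩ := ENat.ne_top_iff_exists.1 hlt.ne_top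
    rw [← ha] at hlt
    have := (key a).2 hlt
    rw [← ha] at this
    exact lt_irrefl _ this

variable (halive : ∀ t, ∀ A : FiniteGrp.{0}, IsPGroup p A → ¬ (T t).Dead A →
    Smith (K (t + 1)) (K 0) (⊥ : Subgroup A))
include halive

/-- Realization of all admissible type functions. -/
theorem exists_type_fun {B : ℕ → FiniteGrp.{0} → Homology}
    (hN : ∀ (t : ℕ) (V : FiniteGrp.{0}) (Y : BSS), Y.IsFin → ¬ (B t V).Acyclic Y →
      ∃ j, ¬ (K j).Acyclic Y ∧ ∀ A : FiniteGrp.{0}, IsPGroup p A → IsMulCommutative A →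
        Group.rank A ≤ j → ¬ (T t).Dead (.of (V × A)))
    (hR : ∀ W : FiniteGrp.{0}, IsPGroup p W → ∀ (S : GCx W) (r : ℕ), S.IsFin →
      (∀ V : Subgroup W, V ≠ ⊥ → ∀ t < r, FixAcyclic (B t (.of V)) S V) → Attachable K r S)
    (G : FiniteGrp.{0}) (hG : IsPGroup p G) {θ : Subgroup G → ℕ∞}
    (hc : ∀ A g, θ (conj g A) = θ A)
    (hl : ∀ A B, A ≤ B → θ A ≤ θ B + ell (A.subgroupOf B)) :
    ∃ X : GCx G, X.IsFin ∧ ∀ A j, FixAcyclic (K j) X A ↔ (j : ℕ∞) < θ A := by
  classical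
  have hfin : ∀ {A C : Subgroup G}, A ≤ C → θ C ≠ ⊤ → θ A ≠ ⊤ := by
    intro A C hAC hC hA
    have h1 := hl A C hAC
    rw [hA, top_le_iff, ENat.add_eq_top] at h1
    exact h1.elim hC (ENat.coe_ne_top _)
  have hsub : ∀ (C : Subgroup G) (A : Subgroup C), A.map C.subtype ≤ C := by
    intro C A
    rintro x ⟨y, _, rfl⟩
    exact y.2
  -- the pieces
  have hpiece : ∀ C : Subgroup G, ∃ Y : GCx (.of C), Y.IsFin ∧
      (∀ A : Subgroup C, ∀ j : ℕ, (j : ℕ∞) < θ (A.map C.subtype) → FixAcyclic (K j) Y A) ∧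
      ∀ a : ℕ, θ C = a → ¬ FixAcyclic (K a) Y ⊤ := by
    intro C
    by_cases hC : θ C = ⊤
    · refine ⟨ptCx (.of C), ptCx_isFin _, fun A j _ => ptCx_acyclic _ _ _, fun a ha => ?_⟩
      rw [hC] at ha
      exact absurd ha.symm (ENat.coe_ne_top a)
    have hA : ∀ A : Subgroup C, θ (A.map C.subtype) ≠ ⊤ := fun A => hfin (hsub C A) hC
    obtain ⟨Y, h1, h2, h3⟩ := exists_cx hab halive hN hR (.of C) (hG.to_subgroup C)
      (θ := fun A : Subgroup C => (θ (A.map C.subtype)).toNat) (fun A g => by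
        have e := conj_map_subtype C A g
        exact le_of_eq (congrArg ENat.toNat ((congrArg θ e).trans (hc _ _)))) (fun L U hLU hn => by
        have h4 := hl (L.map C.subtype) (U.map C.subtype) (Subgroup.map_mono hLU.le)
        have h5 := @sub_normal G _ p _ _ hG C L U hLU.le hn
        obtain ⟨a, ha⟩ := ENat.ne_top_iff_exists.1 (hA L)
        obtain ⟨b, hb⟩ := ENat.ne_top_iff_exists.1 (hA U)
        change (θ (L.map C.subtype)).toNat ≤ (θ (U.map C.subtype)).toNat + _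
        rw [← ha, ← hb] at h4 ⊢
        rw [ENat.toNat_coe, ENat.toNat_coe]
        have h6 : a ≤ b + ell ((L.map C.subtype).subgroupOf (U.map C.subtype)) := by
          exact_mod_cast h4
        exact h6.trans (Nat.add_le_add_left h5 b))
    refine ⟨Y, h1, fun A j hj => h2 A j ?_, fun a ha => ?_⟩
    · obtain ⟨b, hb⟩ := ENat.ne_top_iff_exists.1 (hA A)
      change j < (θ (A.map C.subtype)).toNat
      rw [← hb] at hj ⊢
      rw [ENat.toNat_coe]
      exact_mod_cast hj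
    · have e : (θ ((⊤ : Subgroup C).map C.subtype)).toNat = a := by
        rw [top_map_subtype, ha, ENat.toNat_coe]
      have h4 : ¬ FixAcyclic (K ((θ ((⊤ : Subgroup C).map C.subtype)).toNat)) Y ⊤ := h3
      rwa [e] at h4
  choose Y hY1 hY2 hY3 using hpiece
  refine ⟨wedge fun C : Subgroup G => ind C (Y C), wedge_isFin _ fun C => ind_isFin C (Y C) (hY1 C),
    fun A j => ?_⟩
  have hXfin : (wedge fun C : Subgroup G => ind C (Y C)).IsFin :=
    wedge_isFin _ fun C => ind_isFin C (Y C) (hY1 C)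
  constructor
  · intro h
    by_contra hj
    rw [not_lt] at hj
    obtain ⟨a, ha⟩ := ENat.ne_top_iff_exists.1 (ne_top_of_le_ne_top (ENat.coe_ne_top j) hj)
    have haj : a ≤ j := by rw [← ha] at hj; exact_mod_cast hj
    have h1 := acyclic_mono' K hab hXfin A haj h
    have h2 := (wedge_acyclic (K a) (fun C : Subgroup G => ind C (Y C)) A).1 h1 A
    exact hY3 A a ha.symm (ind_top (K a) h2)
  · intro hj
    refine (wedge_acyclic (K j) (fun C : Subgroup G => ind C (Y C)) A).2 fun C => ?_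
    refine ind_acyclic (K j) A fun g hg => hY2 C _ j ?_
    rw [subgroupOf_map hg, hc]
    exact hj

/-- The classification of type functions. -/
theorem type_iff {B : ℕ → FiniteGrp.{0} → Homology}
    (hN : ∀ (t : ℕ) (V : FiniteGrp.{0}) (Y : BSS), Y.IsFin → ¬ (B t V).Acyclic Y →
      ∃ j, ¬ (K j).Acyclic Y ∧ ∀ A : FiniteGrp.{0}, IsPGroup p A → IsMulCommutative A →
        Group.rank A ≤ j → ¬ (T t).Dead (.of (V × A)))
    (hR : ∀ W : FiniteGrp.{0}, IsPGroup p W → ∀ (S : GCx W) (r : ℕ), S.IsFin →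
      (∀ V : Subgroup W, V ≠ ⊥ → ∀ t < r, FixAcyclic (B t (.of V)) S V) → Attachable K r S)
    (G : FiniteGrp.{0}) (hG : IsPGroup p G) (θ : Subgroup G → ℕ∞) :
    (∃ X : GCx G, X.IsFin ∧ ∀ A j, FixAcyclic (K j) X A ↔ (j : ℕ∞) < θ A) ↔
      (∀ A g, θ (conj g A) = θ A) ∧ ∀ A B, A ≤ B → θ A ≤ θ B + ell (A.subgroupOf B) := by
  constructor
  · rintro ⟨X, hX, h⟩
    exact ⟨type_conj G h, fun A B hAB => type_le hab G hG hX h hAB⟩
  · rintro ⟨hc, hl⟩
    exact exists_type_fun hab halive hN hR G hG hc hl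

end

end Vale.Agent.P241.F
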