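import Vale.Agent.P241.H445.Loop

set_option linter.all false

open CategoryTheory Opposite

namespace Vale.Agent.P241.F

open Based (conj)

section

variable {p : ℕ} [hp : Fact p.Prime] {K : ℕ → Homology} {T : ℕ → Tel p}
  (hab : ∀ A : FiniteGrp.{0}, IsPGroup p A → IsMulCommutative A → ∀ n r,
    Smith (K (n + r)) (K n) (⊥ : Subgroup A) ↔ Group.rank A ≤ r)
  (halive : ∀ t, ∀ A : FiniteGrp.{0}, IsPGroup p A → ¬ (T t).Dead A →
    Smith (K (t + 1)) (K 0) (⊥ : Subgroup A))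
include hab halive

theorem linkAll {G : Type} [Group G] [Finite G] (hG : IsPGroup p G) {L U : Subgroup G}
    [(L.subgroupOf U).Normal] {a b : ℕ} (hab' : a ≤ b + ell (⊥ : Subgroup (U ⧸ L.subgroupOf U)))
    (j : ℕ) (hj : b ≤ j) : LinkD T (U ⧸ L.subgroupOf U) (a - 1) j := by
  intro t ht V ⟨e⟩
  by_contra hcon
  have hQ : IsPGroup p (U ⧸ L.subgroupOf U) := (hG.to_subgroup U).to_quotient _
  have hV : IsPGroup p V := hQ.of_equiv e.symm
  have h1 := ell_add_le_of_not_dead hab halive V hV t j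
    (fun A h1 h2 h3 h4 => hcon ⟨A, h1, h2, h3, h4⟩)
  have h2 := ell_of_surjective hV e.toMonoidHom e.surjective
  omega

/-- For every admissible `θ` there is one finite complex with all the bounds. -/
theorem exists_cx {B : ℕ → FiniteGrp.{0} → Homology}
    (hN : ∀ (t : ℕ) (V : FiniteGrp.{0}) (Y : BSS), Y.IsFin → ¬ (B t V).Acyclic Y →
      ∃ j, ¬ (K j).Acyclic Y ∧ ∀ A : FiniteGrp.{0}, IsPGroup p A → IsMulCommutative A →
        Group.rank A ≤ j → ¬ (T t).Dead (.of (V × A)))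
    (hR : ∀ W : FiniteGrp.{0}, IsPGroup p W → ∀ (S : GCx W) (r : ℕ), S.IsFin →
      (∀ V : Subgroup W, V ≠ ⊥ → ∀ t < r, FixAcyclic (B t (.of V)) S V) → Attachable K r S)
    (G : FiniteGrp.{0}) (hG : IsPGroup p G) {θ : Subgroup G → ℕ}
    (hθ : ∀ A g, θ (conj g A) ≤ θ A)
    (hθ' : ∀ L U : Subgroup G, L < U → ∀ _ : (L.subgroupOf U).Normal,
      θ L ≤ θ U + ell (⊥ : Subgroup (U ⧸ L.subgroupOf U))) :
    ∃ Y : GCx G, Y.IsFin ∧ (∀ A, ∀ j < θ A, FixAcyclic (K j) Y A) ∧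
      ¬ FixAcyclic (K (θ ⊤)) Y ⊤ := by
  obtain ⟨Z, hZ, hZ0, hZn⟩ := exists_type K hab (θ ⊤)
  obtain ⟨Y, h1, h2, h3⟩ := Based.constructionAll (fun n => acTh (K n)) hG
    (D := fun V _ m j => LinkD T V m j)
    (fun V V' _ _ e m j h => LinkD.congr V V' e m j h)
    (realization_toB (acyclic_mono K hab) hN hR) (θ ⊤) (toB Z)
    (isFin_toB hZ) (fun j hj => hZ0 j hj) hZn (θ := θ) hθ le_rfl
    (fun L U hLU hn j hj _ => linkAll hab halive hG (hθ' L U hLU hn) j hj)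
  refine ⟨gOfB Y, isFin_gOfB h1, fun A j hj => (fixAcyclic_gOfB (K j) Y A).2 (h2 A j hj), ?_⟩
  exact fun h => h3 ((fixAcyclic_gOfB (K (θ ⊤)) Y ⊤).1 h)

end

end Vale.Agent.P241.F
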