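import Vale.Agent.P241.H445.Ind

set_option linter.all false

namespace Vale.Agent.P241.F

open Based (conj mem_conj conj_conj conj_one conj_mono)

section

variable {G : Type} [Group G]

theorem subgroupOf_map {A B : Subgroup G} (h : A ≤ B) : (A.subgroupOf B).map B.subtype = A := by
  rw [Subgroup.subgroupOf_map_subtype, inf_eq_left.2 h]

theorem top_map_subtype (B : Subgroup G) : (⊤ : Subgroup B).map B.subtype = B := by
  rw [← MonoidHom.range_eq_map, Subgroup.range_subtype]

theorem conj_map_subtype (C : Subgroup G) (A : Subgroup C) (g : C) :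
    (conj g A).map C.subtype = conj (g : G) (A.map C.subtype) := by
  unfold conj
  rw [Subgroup.map_map, Subgroup.map_map]
  rfl

/-- Chains from `A` to `B` in `G` bound `ℓ(B, A)`. -/
theorem sub_le {A B : Subgroup G} {s : ℕ} (h : IsChain A B s) : ell (A.subgroupOf B) ≤ s := by
  have h1 := h.comap B.subtype
  have h2 : B.comap B.subtype = ⊤ := Subgroup.subgroupOf_self B
  rw [h2] at h1
  exact ell_le h1

variable {p : ℕ} [Fact p.Prime] [Finite G] (hG : IsPGroup p G)
include hG

theorem sub_chain {A B : Subgroup G} (h : A ≤ B) : IsChain A B (ell (A.subgroupOf B)) := by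
  have h1 := (isChain_ell (hG.to_subgroup B) (A.subgroupOf B)).map B.subtype
  rwa [subgroupOf_map h, top_map_subtype] at h1

theorem sub_triangle {A B C : Subgroup G} (h : A ≤ B) (h' : B ≤ C) :
    ell (A.subgroupOf C) ≤ ell (A.subgroupOf B) + ell (B.subgroupOf C) :=
  sub_le ((sub_chain hG h).trans (sub_chain hG h'))

theorem sub_conj_le {A B : Subgroup G} (h : A ≤ B) (g : G) :
    ell ((conj g A).subgroupOf (conj g B)) ≤ ell (A.subgroupOf B) :=
  sub_le ((sub_chain hG h).map (MulAut.conj g).toMonoidHom)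

theorem sub_conj {A B : Subgroup G} (h : A ≤ B) (g : G) :
    ell ((conj g A).subgroupOf (conj g B)) = ell (A.subgroupOf B) := by
  refine le_antisymm (sub_conj_le hG h g) ?_
  have h1 := sub_conj_le hG (conj_mono h g) g⁻¹
  rwa [conj_conj, conj_conj, inv_mul_cancel, conj_one, conj_one] at h1

/-- For `L ⊲ U ≤ B`, chains of the quotient. -/
theorem sub_normal (B : Subgroup G) {L U : Subgroup B} (hLU : L ≤ U) [(L.subgroupOf U).Normal] :
    ell ((L.map B.subtype).subgroupOf (U.map B.subtype)) ≤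
      ell (⊥ : Subgroup (U ⧸ L.subgroupOf U)) := by
  have h := (isChain_ell (((hG.to_subgroup B).to_subgroup U).to_quotient (L.subgroupOf U)) ⊥).comap
    (QuotientGroup.mk' (L.subgroupOf U))
  have h' := h.map U.subtype
  rw [Subgroup.comap_top, top_map_subtype, MonoidHom.comap_bot, QuotientGroup.ker_mk',
    subgroupOf_map hLU] at h'
  exact sub_le (h'.map B.subtype)

end

section

variable {G : FiniteGrp.{0}}

/-- Restriction to a subgroup. -/
def rs (X : GCx G) (B : Subgroup G) : GCx (.of B) where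
  toBSS := X.toBSS
  act b := X.act ((show B from b) : G)
  act_one n x := X.act_one n x
  act_mul g h n x := X.act_mul ((show B from g) : G) ((show B from h) : G) n x

theorem rs_acyclic (E : Homology) (X : GCx G) {A B : Subgroup G} (h : A ≤ B) :
    FixAcyclic E (rs X B) (A.subgroupOf B) ↔ FixAcyclic E X A := by
  have key : ∀ n (x : X.S n), (∀ b ∈ A.subgroupOf B, ((rs X B).act b).f n x = x) ↔
      ∀ g ∈ A, (X.act g).f n x = x := by
    intro n x
    constructor
    · intro hx g hg
      exact hx ⟨g, h hg⟩ (Subgroup.mem_subgroupOf.2 hg)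
    · intro hx b hb
      exact hx _ (Subgroup.mem_subgroupOf.1 hb)
  constructor
  · intro hx Y i hi
    exact hx Y i fun n => ⟨(hi n).1, fun x => (key n x).trans ((hi n).2 x)⟩
  · intro hx Y i hi
    exact hx Y i fun n => ⟨(hi n).1, fun x => (key n x).symm.trans ((hi n).2 x)⟩

theorem rs_isFin {X : GCx G} (h : X.IsFin) (B : Subgroup G) : (rs X B).IsFin := h

theorem conj_acyclic_of (E : Homology) (X : GCx G) (A : Subgroup G) (g : G)
    (h : FixAcyclic E X A) : FixAcyclic E X (conj g A) := by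
  rw [fixAcyclic_fx] at h ⊢
  have hf : ∀ n (x : X.S n), (∀ a ∈ A, (X.act a).f n x = x) →
      ∀ b ∈ conj g A, (X.act b).f n ((X.act g).f n x) = (X.act g).f n x := by
    intro n x hx b hb
    have h1 := hx _ (mem_conj.1 hb)
    rw [← X.act_mul]
    have e : b * g = g * (g⁻¹ * b * g) := by group
    rw [e, X.act_mul, h1]
  have hb : ∀ n (x : X.S n), (∀ b ∈ conj g A, (X.act b).f n x = x) →
      ∀ a ∈ A, (X.act a).f n ((X.act g⁻¹).f n x) = (X.act g⁻¹).f n x := by
    intro n x hx a ha
    have hm : g * a * g⁻¹ ∈ conj g A := by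
      rw [mem_conj]
      have : g⁻¹ * (g * a * g⁻¹) * g = a := by group
      rwa [this]
    have h1 := hx _ hm
    rw [← X.act_mul]
    have e : a * g⁻¹ = g⁻¹ * (g * a * g⁻¹) := by group
    rw [e, X.act_mul, h1]
  refine (E.acyclic_iff_of_bijective (X := fx X A) (Y := fx X (conj g A))
    ⟨fun n x => ⟨(X.act g).f n x.1, hf n x.1 x.2⟩, fun n => Subtype.ext ((X.act g).f_pt n),
      fun a x => Subtype.ext ((X.act g).f_op a x.1)⟩ fun n => ?_).1 h
  refine Function.bijective_iff_has_inverse.2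
    ⟨fun x => ⟨(X.act g⁻¹).f n x.1, hb n x.1 x.2⟩, fun x => Subtype.ext ?_,
      fun x => Subtype.ext ?_⟩
  · change (X.act g⁻¹).f n ((X.act g).f n x.1) = x.1
    rw [← X.act_mul, inv_mul_cancel, X.act_one]
  · change (X.act g).f n ((X.act g⁻¹).f n x.1) = x.1
    rw [← X.act_mul, mul_inv_cancel, X.act_one]

theorem conj_acyclic (E : Homology) (X : GCx G) (A : Subgroup G) (g : G) :
    FixAcyclic E X (conj g A) ↔ FixAcyclic E X A := by
  refine ⟨fun h => ?_, conj_acyclic_of E X A g⟩
  have h1 := conj_acyclic_of E X (conj g A) g⁻¹ h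
  rwa [conj_conj, inv_mul_cancel, conj_one] at h1

theorem acyclic_mono' {p : ℕ} (K : ℕ → Homology)
    (hab : ∀ A : FiniteGrp.{0}, IsPGroup p A → IsMulCommutative A → ∀ n r,
      Smith (K (n + r)) (K n) (⊥ : Subgroup A) ↔ Group.rank A ≤ r)
    {X : GCx G} (hX : X.IsFin) (A : Subgroup G) {n m : ℕ} (hnm : n ≤ m)
    (h : FixAcyclic (K m) X A) : FixAcyclic (K n) X A := by
  obtain ⟨r, rfl⟩ := Nat.exists_eq_add_of_le hnm
  obtain ⟨Y, i, hY, hi⟩ := exists_isFixF X hX A
  exact (fixAcyclic_iffF _ hi).2 (acyclic_mono K hab n r Y hY ((fixAcyclic_iffF _ hi).1 h))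

/-- The one point complex. -/
def ptCx (G : FiniteGrp.{0}) : GCx G := trivG G ptBSS

theorem ptCx_isFin (G : FiniteGrp.{0}) : (ptCx G).IsFin :=
  ⟨fun _ => inferInstanceAs (Finite Unit), 0, fun n _ =>
    ⟨0, le_rfl, ⟨fun _ => 0, fun _ _ _ => le_rfl⟩, (), rfl⟩⟩

theorem ptCx_acyclic (E : Homology) (G : FiniteGrp.{0}) (A : Subgroup G) :
    FixAcyclic E (ptCx G) A :=
  (fixAcyclic_iffF _ (isFixF_trivG G ptBSS A)).2 (acyclic_ptBSS E)

end

end Vale.Agent.P241.F
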