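import Vale.Agent.P241.H445.Wedge

set_option linter.all false

namespace Vale.Agent.P241.F

open Based (conj mem_conj)

section

variable {G : FiniteGrp.{0}} (B : Subgroup G) (Y : GCx (.of B))

variable {B} in
/-- The action of the elements of the subgroup. -/
def ac (b : B) : Map Y.toBSS Y.toBSS := Y.act b

variable {B} in
theorem ac_one (n : ℕ) (y : Y.S n) : (ac Y 1).f n y = y := Y.act_one n y

variable {B} in
theorem ac_mul (b b' : B) (n : ℕ) (y : Y.S n) :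
    (ac Y (b * b')).f n y = (ac Y b).f n ((ac Y b').f n y) := Y.act_mul b b' n y

/-- The induced complex `G₊ ∧_B Y`: the equivariant maps `f : G → Y` supported on a single
coset of `B`. -/
def ind : GCx G where
  S n := {f : G → Y.S n // (∀ (b : B) g, f (b * g) = (ac Y b).f n (f g)) ∧
    ∀ g g', f g ≠ Y.pt n → f g' ≠ Y.pt n → g' * g⁻¹ ∈ B}
  pt n := ⟨fun _ => Y.pt n, fun b g => ((ac Y b).f_pt n).symm, fun g g' h => absurd rfl h⟩
  op a f := ⟨fun g => Y.op a (f.1 g), fun b g => by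
      change Y.op a (f.1 (b * g)) = (ac Y b).f _ (Y.op a (f.1 g))
      rw [f.2.1 b g, (ac Y b).f_op],
    fun g g' h h' => f.2.2 g g' (fun e => h (by change Y.op a (f.1 g) = _; rw [e, Y.op_pt]))
      (fun e => h' (by change Y.op a (f.1 g') = _; rw [e, Y.op_pt]))⟩
  op_pt a := Subtype.ext (funext fun g => Y.op_pt a)
  op_id f := Subtype.ext (funext fun g => Y.op_id _)
  op_comp a b f := Subtype.ext (funext fun g => Y.op_comp a b _)
  act x := ⟨fun n f => ⟨fun g => f.1 (g * x), fun b g => by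
      change f.1 (b * g * x) = _
      rw [mul_assoc]
      exact f.2.1 b (g * x), fun g g' h h' => by
      have := f.2.2 (g * x) (g' * x) h h'
      rwa [mul_inv_rev, ← mul_assoc, mul_assoc g' x, mul_inv_cancel, mul_one] at this⟩,
    fun n => rfl, fun a f => rfl⟩
  act_one n f := Subtype.ext (funext fun g => congrArg f.1 (mul_one g))
  act_mul x y n f := Subtype.ext (funext fun g => congrArg f.1 (mul_assoc g x y).symm)

open Classical in
/-- The element of the induced complex supported at the coset of `g₀`. -/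
noncomputable def indAt (g₀ : G) {n : ℕ} (y : Y.S n) : (ind B Y).S n :=
  ⟨fun g => if h : g * g₀⁻¹ ∈ B then (ac Y ⟨g * g₀⁻¹, h⟩).f n y else Y.pt n, by
    intro b g
    have e : (b : G) * g * g₀⁻¹ = b * (g * g₀⁻¹) := mul_assoc _ _ _
    change (if h : (b : G) * g * g₀⁻¹ ∈ B then (ac Y ⟨b * g * g₀⁻¹, h⟩).f n y else Y.pt n) =
      (ac Y b).f n (if h : g * g₀⁻¹ ∈ B then (ac Y ⟨g * g₀⁻¹, h⟩).f n y else Y.pt n)
    by_cases h : g * g₀⁻¹ ∈ B
    · have h' : (b : G) * g * g₀⁻¹ ∈ B := by rw [e]; exact B.mul_mem b.2 h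
      rw [dif_pos h, dif_pos h', ← ac_mul Y]
      have e' : (⟨b * g * g₀⁻¹, h'⟩ : B) = b * ⟨g * g₀⁻¹, h⟩ := Subtype.ext e
      rw [e']
    · have h' : (b : G) * g * g₀⁻¹ ∉ B := by
        rw [e, B.mul_mem_cancel_left b.2]; exact h
      rw [dif_neg h, dif_neg h', (ac Y b).f_pt], by
    intro g g' h h'
    have h1 : g * g₀⁻¹ ∈ B := by
      by_contra hc; exact h (dif_neg hc)
    have h2 : g' * g₀⁻¹ ∈ B := by
      by_contra hc; exact h' (dif_neg hc)
    have := B.mul_mem h2 (B.inv_mem h1)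
    rwa [mul_inv_rev, inv_inv, ← mul_assoc, mul_assoc g', inv_mul_cancel, mul_one] at this⟩

theorem indAt_self (g₀ : G) {n : ℕ} (y : Y.S n) : (indAt B Y g₀ y).1 g₀ = y := by
  classical
  have h : g₀ * g₀⁻¹ ∈ B := by rw [mul_inv_cancel]; exact B.one_mem
  change (if h : g₀ * g₀⁻¹ ∈ B then (ac Y ⟨g₀ * g₀⁻¹, h⟩).f n y else Y.pt n) = y
  rw [dif_pos h]
  have e : (⟨g₀ * g₀⁻¹, h⟩ : B) = 1 := Subtype.ext (mul_inv_cancel g₀)
  rw [e]
  exact ac_one Y n y

theorem indAt_neg (g₀ g : G) (h : g * g₀⁻¹ ∉ B) {n : ℕ} (y : Y.S n) :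
    (indAt B Y g₀ y).1 g = Y.pt n := dif_neg h

/-- Values of elements of the induced complex. -/
theorem ind_val {n : ℕ} (f : (ind B Y).S n) (g₀ g : G) (h : g * g₀⁻¹ ∈ B) :
    f.1 g = (ac Y ⟨g * g₀⁻¹, h⟩).f n (f.1 g₀) := by
  have h1 := f.2.1 ⟨g * g₀⁻¹, h⟩ g₀
  change f.1 (g * g₀⁻¹ * g₀) = _ at h1
  rwa [inv_mul_cancel_right] at h1

theorem ind_ext {n : ℕ} (f f' : (ind B Y).S n) (g₀ : G) (h : f.1 g₀ = f'.1 g₀)
    (h0 : f.1 g₀ ≠ Y.pt n) : f = f' := by
  refine Subtype.ext (funext fun g => ?_)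
  by_cases hg : g * g₀⁻¹ ∈ B
  · rw [ind_val B Y f g₀ g hg, ind_val B Y f' g₀ g hg, h]
  · have h1 : f.1 g = Y.pt n := by
      by_contra hc; exact hg (f.2.2 g₀ g h0 hc)
    have h2 : f'.1 g = Y.pt n := by
      by_contra hc; exact hg (f'.2.2 g₀ g (h ▸ h0) hc)
    rw [h1, h2]

theorem indAt_op (g₀ : G) {m n : ℕ} (a : Op m n) (y : Y.S n) :
    (ind B Y).op a (indAt B Y g₀ y) = indAt B Y g₀ (Y.op a y) := by
  refine Subtype.ext (funext fun g => ?_)
  change Y.op a ((indAt B Y g₀ y).1 g) = (indAt B Y g₀ (Y.op a y)).1 g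
  by_cases hg : g * g₀⁻¹ ∈ B
  · rw [ind_val B Y _ g₀ g hg, ind_val B Y _ g₀ g hg, indAt_self, indAt_self, (ac Y _).f_op]
  · rw [indAt_neg B Y g₀ g hg, indAt_neg B Y g₀ g hg, Y.op_pt]

theorem indAt_pt (g₀ : G) (n : ℕ) : indAt B Y g₀ (Y.pt n) = (ind B Y).pt n := by
  refine Subtype.ext (funext fun g => ?_)
  change (indAt B Y g₀ (Y.pt n)).1 g = Y.pt n
  by_cases hg : g * g₀⁻¹ ∈ B
  · rw [ind_val B Y _ g₀ g hg, indAt_self, (ac Y _).f_pt]
  · rw [indAt_neg B Y g₀ g hg]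

theorem ind_isFin (h : Y.IsFin) : (ind B Y).IsFin := by
  obtain ⟨h1, d, h2⟩ := h
  refine ⟨fun n => ?_, d, fun n f => ?_⟩
  · have : Finite (Y.S n) := h1 n
    exact Subtype.finite
  · by_cases hf : ∃ g, f.1 g ≠ Y.pt n
    · obtain ⟨g, hg⟩ := hf
      obtain ⟨k, hk, a, y, hy⟩ := h2 n (f.1 g)
      refine ⟨k, hk, a, indAt B Y g y, ?_⟩
      rw [indAt_op, hy]
      refine (ind_ext B Y f _ g ?_ hg).symm
      rw [indAt_self]
    · push Not at hf
      refine ⟨0, Nat.zero_le _, ⟨fun _ => 0, fun _ _ _ => le_rfl⟩, (ind B Y).pt 0, ?_⟩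
      rw [(ind B Y).op_pt]
      exact Subtype.ext (funext fun g => (hf g).symm)

variable {B Y}

/-- `A`-fixed elements are supported on cosets `B g` with `g A g⁻¹ ≤ B`. -/
theorem ind_fix_supp {A : Subgroup G} {n : ℕ} (f : (fx (ind B Y) A).S n) (g : G)
    (h : f.1.1 g ≠ Y.pt n) : conj g A ≤ B := by
  intro x hx
  rw [mem_conj] at hx
  have h1 : f.1.1 (g * (g⁻¹ * x * g)) = f.1.1 g :=
    congrFun (congrArg Subtype.val (f.2 _ hx)) g
  have h2 := f.1.2.2 g (g * (g⁻¹ * x * g)) h (by rw [h1]; exact h)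
  have e : g * (g⁻¹ * x * g) * g⁻¹ = x := by group
  rwa [e] at h2

theorem ind_fix_val {A : Subgroup G} {n : ℕ} (f : (fx (ind B Y) A).S n) (g : G) :
    ∀ b ∈ (conj g A).subgroupOf B, (ac Y b).f n (f.1.1 g) = f.1.1 g := by
  intro b hb
  have hx : g⁻¹ * (b : G) * g ∈ A := mem_conj.1 (Subgroup.mem_subgroupOf.1 hb)
  have h1 : f.1.1 (g * (g⁻¹ * b * g)) = f.1.1 g :=
    congrFun (congrArg Subtype.val (f.2 _ hx)) g
  have e : g * (g⁻¹ * (b : G) * g) = b * g := by group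
  rw [e] at h1
  exact (f.1.2.1 b g).symm.trans h1

theorem indAt_fix {A : Subgroup G} (g₀ : G) (hA : conj g₀ A ≤ B) {n : ℕ} (y : Y.S n)
    (hy : ∀ b ∈ (conj g₀ A).subgroupOf B, (ac Y b).f n y = y) :
    ∀ a ∈ A, ((ind B Y).act a).f n (indAt B Y g₀ y) = indAt B Y g₀ y := by
  intro a ha
  have hb : g₀ * a * g₀⁻¹ ∈ conj g₀ A := by
    rw [mem_conj]
    have : g₀⁻¹ * (g₀ * a * g₀⁻¹) * g₀ = a := by group
    rwa [this]
  have hbB : g₀ * a * g₀⁻¹ ∈ B := hA hb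
  refine Subtype.ext (funext fun g => ?_)
  change (indAt B Y g₀ y).1 (g * a) = (indAt B Y g₀ y).1 g
  have e : g * a * g₀⁻¹ = g * g₀⁻¹ * (g₀ * a * g₀⁻¹) := by group
  by_cases hg : g * g₀⁻¹ ∈ B
  · have hg' : g * a * g₀⁻¹ ∈ B := by rw [e]; exact B.mul_mem hg hbB
    rw [ind_val B Y _ g₀ _ hg', ind_val B Y _ g₀ g hg, indAt_self]
    have e' : (⟨g * a * g₀⁻¹, hg'⟩ : B) = ⟨g * g₀⁻¹, hg⟩ * ⟨g₀ * a * g₀⁻¹, hbB⟩ := Subtype.ext e
    rw [e']
    refine (ac_mul Y ⟨g * g₀⁻¹, hg⟩ ⟨g₀ * a * g₀⁻¹, hbB⟩ n y).trans ?_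
    rw [hy ⟨g₀ * a * g₀⁻¹, hbB⟩ (Subgroup.mem_subgroupOf.2 hb)]
  · have hg' : g * a * g₀⁻¹ ∉ B := by
      rw [e, B.mul_mem_cancel_right hbB]; exact hg
    rw [indAt_neg B Y g₀ _ hg', indAt_neg B Y g₀ _ hg]

/-- Fixed points of the induced complex. -/
theorem ind_acyclic (E : Homology) (A : Subgroup G)
    (h : ∀ g : G, conj g A ≤ B → FixAcyclic E Y ((conj g A).subgroupOf B)) :
    FixAcyclic E (ind B Y) A := by
  classical
  rw [fixAcyclic_fx]
  let Q := Quotient (QuotientGroup.rightRel B)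
  let ι : Type := {c : Q // conj c.out A ≤ B}
  have : Finite ι := Subtype.finite
  refine acyclic_of_wedge (ι := ι) (fx (ind B Y) A)
    (fun c => fx Y ((conj c.1.out A).subgroupOf B))
    (fun c => ⟨fun n f => ⟨f.1.1 c.1.out, ind_fix_val f c.1.out⟩, fun n => rfl, fun a f => rfl⟩)
    E ?_ ?_ ?_ ?_
  · intro n f hf
    refine Subtype.ext (Subtype.ext (funext fun g => ?_))
    change f.1.1 g = Y.pt n
    by_contra hg
    let c : Q := Quotient.mk _ g
    have h1 : (QuotientGroup.rightRel B) c.out g := Quotient.mk_out (s := QuotientGroup.rightRel B) g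
    rw [QuotientGroup.rightRel_apply] at h1
    have h2 : f.1.1 c.out ≠ Y.pt n := by
      intro h3
      apply hg
      rw [ind_val B Y f.1 c.out g h1, h3, (ac Y _).f_pt]
    exact h2 (congrArg Subtype.val (hf ⟨c, ind_fix_supp f _ h2⟩))
  · intro n c z
    refine ⟨⟨indAt B Y c.1.out z.1, indAt_fix c.1.out c.2 z.1 z.2⟩,
      Subtype.ext (indAt_self B Y _ _), fun c' hc' => Subtype.ext (indAt_neg B Y _ _ ?_ _)⟩
    intro h1
    apply hc'
    refine Subtype.ext ?_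
    rw [← Quotient.out_eq c.1, ← Quotient.out_eq c'.1]
    refine (Quotient.sound ?_).symm
    exact QuotientGroup.rightRel_apply.2 h1
  · intro n c f f' hff' hf
    exact Subtype.ext (ind_ext B Y f.1 f'.1 c.1.out (congrArg Subtype.val hff')
      (fun h' => hf (Subtype.ext h')))
  · intro c
    exact (fixAcyclic_fx E Y _).1 (h c.1.out c.2)

theorem ind_top (E : Homology) (h : FixAcyclic E (ind B Y) B) : FixAcyclic E Y ⊤ := by
  rw [fixAcyclic_fx] at h ⊢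
  have hc : conj 1 B ≤ B := by rw [Based.conj_one]
  refine Homology.Acyclic.of_retr (X := fx (ind B Y) B)
    ⟨fun n y => ⟨indAt B Y 1 y.1, indAt_fix 1 hc y.1 fun b _ => y.2 b (Subgroup.mem_top _)⟩,
      fun n => Subtype.ext (indAt_pt B Y 1 n), fun a y => Subtype.ext (indAt_op B Y 1 a y.1).symm⟩
    ⟨fun n f => ⟨f.1.1 1, fun b _ => ind_fix_val f 1 b
        (by rw [Based.conj_one, Subgroup.subgroupOf_self]; exact Subgroup.mem_top _)⟩,
      fun n => rfl, fun a f => rfl⟩ (fun n y => Subtype.ext (indAt_self B Y 1 y.1)) h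

end

end Vale.Agent.P241.F
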