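import Vale.Agent.P241.H445.Class

set_option linter.all false

namespace Vale.Agent.P241.F

open Based (conj mem_conj conj_conj conj_one conj_mono)

section

/-- The type function of the prime `(L, n)`. -/
noncomputable def thetaOf {G : FiniteGrp.{0}} (L : Subgroup G) (n : ℕ) (A : Subgroup G) : ℕ∞ :=
  ⨅ (g : G) (_ : conj g A ≤ L), ((n + ell ((conj g A).subgroupOf L) : ℕ) : ℕ∞)

theorem thetaOf_le {G : FiniteGrp.{0}} {L : Subgroup G} {n m : ℕ} {A : Subgroup G} (g : G)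
    (h : conj g A ≤ L) (h' : n + ell ((conj g A).subgroupOf L) ≤ m) : thetaOf L n A ≤ m :=
  (iInf₂_le g h).trans (by exact_mod_cast h')

theorem thetaOf_le_iff {G : FiniteGrp.{0}} {L : Subgroup G} {n m : ℕ} {A : Subgroup G} :
    thetaOf L n A ≤ m ↔ ∃ g : G, conj g A ≤ L ∧ n + ell ((conj g A).subgroupOf L) ≤ m := by
  constructor
  · intro h
    have h1 : thetaOf L n A < ((m + 1 : ℕ) : ℕ∞) :=
      lt_of_le_of_lt h (by exact_mod_cast Nat.lt_succ_self m)
    unfold thetaOf at h1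
    rw [iInf_lt_iff] at h1
    obtain ⟨g, hg⟩ := h1
    rw [iInf_lt_iff] at hg
    obtain ⟨hg, hlt⟩ := hg
    refine ⟨g, hg, ?_⟩
    have : n + ell ((conj g A).subgroupOf L) < m + 1 := by exact_mod_cast hlt
    omega
  · rintro ⟨g, hg, hle⟩
    exact thetaOf_le g hg hle

theorem thetaOf_conj_le {G : FiniteGrp.{0}} (L : Subgroup G) (n : ℕ) (A : Subgroup G) (g : G) :
    thetaOf L n (conj g A) ≤ thetaOf L n A := by
  refine le_iInf₂ fun x hx => ?_
  have e : conj (x * g⁻¹) (conj g A) = conj x A := by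
    rw [conj_conj, inv_mul_cancel_right]
  refine thetaOf_le (x * g⁻¹) (by rw [e]; exact hx) ?_
  rw [e]

variable {p : ℕ} [hp : Fact p.Prime]

theorem thetaOf_chain (G : FiniteGrp.{0}) (hG : IsPGroup p G) (L : Subgroup G) (n : ℕ)
    {A B : Subgroup G} (hAB : A ≤ B) :
    thetaOf L n A ≤ thetaOf L n B + ell (A.subgroupOf B) := by
  by_cases hB : thetaOf L n B = ⊤
  · rw [hB, top_add]; exact le_top
  obtain ⟨b, hb⟩ := ENat.ne_top_iff_exists.1 hB
  obtain ⟨g, hg, hle⟩ := thetaOf_le_iff.1 hb.symm.le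
  have h1 : conj g A ≤ conj g B := conj_mono hAB g
  have h2 := sub_triangle hG h1 hg
  rw [sub_conj hG hAB g] at h2
  rw [← hb]
  have h3 : thetaOf L n A ≤ ((b + ell (A.subgroupOf B) : ℕ) : ℕ∞) :=
    thetaOf_le g (h1.trans hg) (by omega)
  exact_mod_cast h3

variable {K : ℕ → Homology} {T : ℕ → Tel p}
  (hab : ∀ A : FiniteGrp.{0}, IsPGroup p A → IsMulCommutative A → ∀ n r,
    Smith (K (n + r)) (K n) (⊥ : Subgroup A) ↔ Group.rank A ≤ r)
include hab

/-- The generalized Smith theorem for pairs of subgroups. -/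
theorem pair_of (G : FiniteGrp.{0}) (hG : IsPGroup p G) {H L : Subgroup G} {m n : ℕ} (g : G)
    (hg : conj g H ≤ L) (hle : n + ell ((conj g H).subgroupOf L) ≤ m) {X : GCx G} (hX : X.IsFin)
    (h : FixAcyclic (K m) X H) : FixAcyclic (K n) X L := by
  have h1 := (conj_acyclic (K m) X H g).2 h
  have h2 := acyclic_mono' K hab hX (conj g H) hle h1
  have h3 := smith_of_ell_le K hab (.of L) (hG.to_subgroup L) ((conj g H).subgroupOf L) n
    (ell ((conj g H).subgroupOf L)) le_rfl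
  have h4 := h3 (rs X L) (rs_isFin hX L) ((rs_acyclic _ X hg).2 h2)
  rw [← rs_acyclic (K n) X (le_refl L), Subgroup.subgroupOf_self]
  exact h4

variable (halive : ∀ t, ∀ A : FiniteGrp.{0}, IsPGroup p A → ¬ (T t).Dead A →
    Smith (K (t + 1)) (K 0) (⊥ : Subgroup A))
include halive

/-- All implications between vanishing of Morava K-theories of fixed points. -/
theorem closure_iff {B : ℕ → FiniteGrp.{0} → Homology}
    (hN : ∀ (t : ℕ) (V : FiniteGrp.{0}) (Y : BSS), Y.IsFin → ¬ (B t V).Acyclic Y →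
      ∃ j, ¬ (K j).Acyclic Y ∧ ∀ A : FiniteGrp.{0}, IsPGroup p A → IsMulCommutative A →
        Group.rank A ≤ j → ¬ (T t).Dead (.of (V × A)))
    (hR : ∀ W : FiniteGrp.{0}, IsPGroup p W → ∀ (S : GCx W) (r : ℕ), S.IsFin →
      (∀ V : Subgroup W, V ≠ ⊥ → ∀ t < r, FixAcyclic (B t (.of V)) S V) → Attachable K r S)
    (G : FiniteGrp.{0}) (hG : IsPGroup p G) (S : Set (Subgroup G × ℕ)) (L : Subgroup G) (n : ℕ) :
    (∀ X : GCx G, X.IsFin → (∀ s ∈ S, FixAcyclic (K s.2) X s.1) → FixAcyclic (K n) X L) ↔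
      ∃ s ∈ S, ∃ g : G, conj g s.1 ≤ L ∧ n + ell ((conj g s.1).subgroupOf L) ≤ s.2 := by
  constructor
  · intro h
    by_contra hcon
    push Not at hcon
    obtain ⟨X, hX, hθ⟩ := exists_type_fun hab halive hN hR G hG (θ := thetaOf L n)
      (fun A g => le_antisymm (thetaOf_conj_le L n A g) (by
        have := thetaOf_conj_le L n (conj g A) g⁻¹
        rwa [conj_conj, inv_mul_cancel, conj_one] at this))
      (fun A B hAB => thetaOf_chain G hG L n hAB)
    have h1 := h X hX fun s hs => by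
      rw [hθ, ← not_le, thetaOf_le_iff]
      rintro ⟨g, hg, hle⟩
      exact absurd hle (not_le.2 (hcon s hs g hg))
    rw [hθ] at h1
    refine absurd (thetaOf_le (m := n) 1 (by rw [conj_one]) ?_) (not_le.2 h1)
    rw [conj_one, Subgroup.subgroupOf_self, ell_top']
    exact le_rfl
  · rintro ⟨s, hs, g, hg, hle⟩ X hX h
    exact pair_of hab G hG g hg hle hX (h s hs)

end

/-- Everything together. -/
theorem main445 (p : ℕ) [Fact p.Prime] (K : ℕ → Homology)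
    (T : ℕ → Tel p) (B : ℕ → FiniteGrp.{0} → Homology)
    (h₁ : ∀ A : FiniteGrp.{0}, IsPGroup p A → IsMulCommutative A → ∀ n r,
      Smith (K (n + r)) (K n) (⊥ : Subgroup A) ↔ Group.rank A ≤ r)
    (h₂ : ∀ t V (X : GCx V), X.IsFin → (K (t + 1)).Acyclic X.toBSS → FixAcyclic (B t V) X ⊤)
    (h₃ : ∀ t V (Y : BSS), ¬ (T t).Dead V → (B t V).Acyclic Y → (K 0).Acyclic Y)
    (h₄ : ∀ t V (Y : BSS), Y.IsFin → ¬ (B t V).Acyclic Y → ∃ j, ¬ (K j).Acyclic Y ∧
      ∀ A : FiniteGrp.{0}, IsPGroup p A → IsMulCommutative A → Group.rank A ≤ j →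
        ¬ (T t).Dead (.of (V × A)))
    (h₅ : ∀ W : FiniteGrp.{0}, IsPGroup p W → ∀ (S : GCx W) r, S.IsFin →
      (∀ V : Subgroup W, V ≠ ⊥ → ∀ t < r, FixAcyclic (B t (.of V)) S V) → Attachable K r S)
    (G : FiniteGrp.{0}) (hG : IsPGroup p G) :
    (∀ θ : Subgroup G → ℕ∞,
      (∃ X : GCx G, X.IsFin ∧ ∀ A j, FixAcyclic (K j) X A ↔ (j : ℕ∞) < θ A) ↔
        (∀ A g, θ (conj g A) = θ A) ∧ ∀ A B, A ≤ B → θ A ≤ θ B + ell (A.subgroupOf B)) ∧
    ∀ (S : Set (Subgroup G × ℕ)) (L : Subgroup G) (n : ℕ),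
      (∀ X : GCx G, X.IsFin → (∀ s ∈ S, FixAcyclic (K s.2) X s.1) → FixAcyclic (K n) X L) ↔
        ∃ s ∈ S, ∃ g : G, conj g s.1 ≤ L ∧ n + ell ((conj g s.1).subgroupOf L) ≤ s.2 := by
  have halive : ∀ t, ∀ A : FiniteGrp.{0}, IsPGroup p A → ¬ (T t).Dead A →
      Smith (K (t + 1)) (K 0) (⊥ : Subgroup A) := by
    intro t A _ hA X hX h
    obtain ⟨Y, i, _, hi⟩ := exists_isFixF X hX ⊤
    rw [fixAcyclic_iffF _ hi]
    exact h₃ t A Y hA ((fixAcyclic_iffF _ hi).1 (h₂ t A X hX ((fixAcyclic_bot _ X).1 h)))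
  exact ⟨fun θ => type_iff h₁ halive h₄ h₅ G hG θ,
    fun S L n => closure_iff h₁ halive h₄ h₅ G hG S L n⟩

end Vale.Agent.P241.F
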