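import Vale.Agent.P241.H445.Cx

set_option linter.all false

namespace Vale.Agent.P241.F

/-! ### Finite wedges -/

theorem acyclic_ptBSS (E : Homology) : E.Acyclic ptBSS := by
  intro j x
  rw [E.eq_zero_iff]
  exact ⟨x, E.map_id j (ptMap ptBSS) (fun _ _ => rfl) x⟩

theorem acyclic_of_subsingleton (E : Homology) (X : BSS) (h : ∀ n (x : X.S n), x = X.pt n) :
    E.Acyclic X := by
  refine (E.acyclic_iff_of_bijective (ptMap X) fun n => ⟨fun _ _ _ => rfl, fun x => ?_⟩).1
    (acyclic_ptBSS E)
  exact ⟨(), (h n x).symm⟩

theorem Homology.Acyclic.of_cofiber {E : Homology} {A X Q : BSS} {i : Map A X} {q : Map X Q}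
    (h : IsCofiber i q) (hA : E.Acyclic A) (hQ : E.Acyclic Q) : E.Acyclic X := by
  obtain ⟨δ, hδ⟩ := E.exact i q h
  intro j x
  obtain ⟨a, ha⟩ := ((hδ j).1 x).1 (hQ j _)
  rw [← ha, hA j a, E.map_zero]

theorem Homology.Acyclic.of_retr {E : Homology} {X Y : BSS} (f : Map Y X) (g : Map X Y)
    (hfg : ∀ n y, g.f n (f.f n y) = y) (hX : E.Acyclic X) : E.Acyclic Y := by
  intro j y
  have h1 : E.map j g (E.map j f y) = y := by
    rw [← E.map_comp j f g (idMap Y) (fun n x => (hfg n x).symm), E.map_id j _ (fun _ _ => rfl)]
  rw [← h1, hX j (E.map j f y), E.map_zero]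

section

variable {ι : Type} (X : BSS) (Z : ι → BSS) (r : ∀ i, Map X (Z i))

/-- The part of `X` supported on `P`. -/
def part (P : Set ι) : BSS where
  S n := {x : X.S n // ∀ i, i ∉ P → (r i).f n x = (Z i).pt n}
  pt n := ⟨X.pt n, fun i _ => (r i).f_pt n⟩
  op a x := ⟨X.op a x.1, fun i hi => by rw [(r i).f_op, x.2 i hi, (Z i).op_pt]⟩
  op_pt a := Subtype.ext (X.op_pt a)
  op_id x := Subtype.ext (X.op_id x.1)
  op_comp a b x := Subtype.ext (X.op_comp a b x.1)

theorem acyclic_of_wedge (E : Homology) [Finite ι]
    (hsep : ∀ n x, (∀ i, (r i).f n x = (Z i).pt n) → x = X.pt n)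
    (hsurj : ∀ n i z, ∃ x, (r i).f n x = z ∧ ∀ j, j ≠ i → (r j).f n x = (Z j).pt n)
    (hinj : ∀ n i x y, (r i).f n x = (r i).f n y → (r i).f n x ≠ (Z i).pt n → x = y)
    (h : ∀ i, E.Acyclic (Z i)) : E.Acyclic X := by
  classical
  have := Fintype.ofFinite ι
  have key : ∀ P : Finset ι, E.Acyclic (part X Z r (P : Set ι)) := by
    intro P
    induction P using Finset.induction_on with
    | empty =>
      refine acyclic_of_subsingleton E _ fun n x => Subtype.ext (hsep n x.1 fun i => x.2 i ?_)
      simp
    | insert i P hi ih =>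
      let a : Map (part X Z r (P : Set ι)) (part X Z r ((insert i P : Finset ι) : Set ι)) :=
        ⟨fun n x => ⟨x.1, fun j hj => x.2 j fun h' => hj (by
            rw [Finset.coe_insert]; exact Or.inr h')⟩, fun n => rfl, fun b x => rfl⟩
      let q : Map (part X Z r ((insert i P : Finset ι) : Set ι)) (Z i) :=
        ⟨fun n x => (r i).f n x.1, fun n => (r i).f_pt n, fun b x => (r i).f_op b x.1⟩
      refine Homology.Acyclic.of_cofiber (i := a) (q := q) ?_ ih (h i)
      intro n
      have hmem : ∀ x : (part X Z r ((insert i P : Finset ι) : Set ι)).S n,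
          (r i).f n x.1 = (Z i).pt n → ∃ y, a.f n y = x := by
        intro x hx
        refine ⟨⟨x.1, fun j hj => ?_⟩, Subtype.ext rfl⟩
        by_cases hji : j = i
        · subst hji; exact hx
        · refine x.2 j fun h' => ?_
          rw [Finset.coe_insert] at h'
          exact h'.elim hji hj
      refine ⟨fun x y hxy => by
          have h1 : (a.f n x).1 = (a.f n y).1 := congrArg Subtype.val hxy
          exact Subtype.ext h1, fun z => ?_, fun x y => ?_⟩
      · obtain ⟨x, hx, hx'⟩ := hsurj n i z
        refine ⟨⟨x, fun j hj => hx' j ?_⟩, hx⟩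
        rintro rfl
        exact hj (by rw [Finset.coe_insert]; exact Or.inl rfl)
      · constructor
        · intro hxy
          by_cases h0 : (r i).f n x.1 = (Z i).pt n
          · exact Or.inr ⟨hmem x h0, hmem y ((show (r i).f n x.1 = (r i).f n y.1 from hxy) ▸ h0)⟩
          · exact Or.inl (Subtype.ext (hinj n i x.1 y.1 hxy h0))
        · rintro (rfl | ⟨⟨x', rfl⟩, ⟨y', rfl⟩⟩)
          · rfl
          · exact (x'.2 i hi).trans (y'.2 i hi).symm
  refine (E.acyclic_iff_of_bijective (X := part X Z r ((Finset.univ : Finset ι) : Set ι)) (Y := X)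
    ⟨fun n x => x.1, fun n => rfl, fun a x => rfl⟩ fun n => ⟨fun x y => Subtype.ext, fun x => ?_⟩).1
    (key Finset.univ)
  exact ⟨⟨x, fun i hi => absurd (by simp) hi⟩, rfl⟩

end

/-! ### Fixed points -/

section

variable {G : FiniteGrp.{0}}

/-- The based simplicial set of `H`-fixed points. -/
def fx (X : GCx G) (H : Subgroup G) : BSS where
  S n := {x : X.S n // ∀ g ∈ H, (X.act g).f n x = x}
  pt n := ⟨X.pt n, fun g _ => (X.act g).f_pt n⟩
  op a x := ⟨X.op a x.1, fun g hg => by rw [(X.act g).f_op, x.2 g hg]⟩
  op_pt a := Subtype.ext (X.op_pt a)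
  op_id x := Subtype.ext (X.op_id x.1)
  op_comp a b x := Subtype.ext (X.op_comp a b x.1)

theorem fixAcyclic_fx (E : Homology) (X : GCx G) (H : Subgroup G) :
    FixAcyclic E X H ↔ E.Acyclic (fx X H) :=
  fixAcyclic_gToB E X H

/-- Wedges of `G`-complexes. -/
def wedge {ι : Type} (X : ι → GCx G) : GCx G where
  S n := {f : ∀ i, (X i).S n // ∀ i j, f i ≠ (X i).pt n → f j ≠ (X j).pt n → i = j}
  pt n := ⟨fun i => (X i).pt n, fun i j h => absurd rfl h⟩
  op a f := ⟨fun i => (X i).op a (f.1 i), fun i j hi hj => f.2 i j
    (fun h => hi (by change (X i).op a (f.1 i) = _; rw [h, (X i).op_pt]))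
    (fun h => hj (by change (X j).op a (f.1 j) = _; rw [h, (X j).op_pt]))⟩
  op_pt a := Subtype.ext (funext fun i => (X i).op_pt a)
  op_id f := Subtype.ext (funext fun i => (X i).op_id _)
  op_comp a b f := Subtype.ext (funext fun i => (X i).op_comp a b _)
  act g := ⟨fun n f => ⟨fun i => ((X i).act g).f n (f.1 i), fun i j hi hj => f.2 i j
      (fun h => hi (by change ((X i).act g).f n (f.1 i) = _; rw [h, ((X i).act g).f_pt]))
      (fun h => hj (by change ((X j).act g).f n (f.1 j) = _; rw [h, ((X j).act g).f_pt]))⟩,
    fun n => Subtype.ext (funext fun i => ((X i).act g).f_pt n),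
    fun a f => Subtype.ext (funext fun i => ((X i).act g).f_op a _)⟩
  act_one n f := Subtype.ext (funext fun i => (X i).act_one n _)
  act_mul g h n f := Subtype.ext (funext fun i => (X i).act_mul g h n _)

theorem wedge_isFin {ι : Type} [Finite ι] (X : ι → GCx G) (h : ∀ i, (X i).IsFin) :
    (wedge X).IsFin := by
  classical
  have := Fintype.ofFinite ι
  choose h1 d h2 using h
  refine ⟨fun n => ?_, Finset.univ.sup d, fun n f => ?_⟩
  · have : ∀ i, Finite ((X i).S n) := fun i => h1 i n
    exact Subtype.finite
  · by_cases hf : ∃ i, f.1 i ≠ (X i).pt n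
    · obtain ⟨i, hi⟩ := hf
      obtain ⟨k, hk, a, y, hy⟩ := h2 i n (f.1 i)
      refine ⟨k, hk.trans (Finset.le_sup (Finset.mem_univ i)), a,
        ⟨Function.update (fun j => (X j).pt k) i y, ?_⟩, Subtype.ext (funext fun j => ?_)⟩
      · intro j l hj hl
        have hj' : j = i := by
          by_contra h; exact hj (Function.update_of_ne h _ _)
        have hl' : l = i := by
          by_contra h; exact hl (Function.update_of_ne h _ _)
        rw [hj', hl']
      · change (X j).op a (Function.update (fun j => (X j).pt k) i y j) = f.1 j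
        by_cases hj : j = i
        · subst hj
          rw [Function.update_self, hy]
        · rw [Function.update_of_ne hj, (X j).op_pt]
          by_contra hne
          exact hj (f.2 j i (fun h => hne h.symm) hi)
    · push Not at hf
      refine ⟨0, Nat.zero_le _, ⟨fun _ => 0, fun _ _ _ => le_rfl⟩, (wedge X).pt 0, ?_⟩
      rw [(wedge X).op_pt]
      exact Subtype.ext (funext fun i => (hf i).symm)

theorem wedge_acyclic {ι : Type} [Finite ι] (E : Homology) (X : ι → GCx G) (A : Subgroup G) :
    FixAcyclic E (wedge X) A ↔ ∀ i, FixAcyclic E (X i) A := by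
  classical
  simp only [fixAcyclic_fx]
  have hin : ∀ i n (z : (fx (X i) A).S n), ∃ x : (fx (wedge X) A).S n,
      x.1.1 i = z.1 ∧ ∀ j, j ≠ i → x.1.1 j = (X j).pt n := by
    intro i n z
    refine ⟨⟨⟨Function.update (fun j => (X j).pt n) i z.1, ?_⟩, ?_⟩, ?_, ?_⟩
    · intro j l hj hl
      have hj' : j = i := by
        by_contra h; exact hj (Function.update_of_ne h _ _)
      have hl' : l = i := by
        by_contra h; exact hl (Function.update_of_ne h _ _)
      rw [hj', hl']
    · intro g hg
      refine Subtype.ext (funext fun j => ?_)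
      change ((X j).act g).f n (Function.update (fun j => (X j).pt n) i z.1 j) =
        Function.update (fun j => (X j).pt n) i z.1 j
      by_cases hj : j = i
      · subst hj
        rw [Function.update_self]
        exact z.2 g hg
      · rw [Function.update_of_ne hj, ((X j).act g).f_pt]
    · exact Function.update_self i z.1 (fun j => (X j).pt n)
    · intro j hj
      exact Function.update_of_ne hj z.1 (fun j => (X j).pt n)
  let r : ∀ i, Map (fx (wedge X) A) (fx (X i) A) := fun i =>
    ⟨fun n f => ⟨f.1.1 i, fun g hg => congrFun (congrArg Subtype.val (f.2 g hg)) i⟩,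
      fun n => rfl, fun a f => rfl⟩
  constructor
  · intro h i
    refine Homology.Acyclic.of_retr (X := fx (wedge X) A)
      ⟨fun n z => ⟨⟨Function.update (fun j => (X j).pt n) i z.1, ?_⟩, ?_⟩, ?_, ?_⟩ (r i) ?_ h
    · intro j l hj hl
      have hj' : j = i := by
        by_contra h; exact hj (Function.update_of_ne h _ _)
      have hl' : l = i := by
        by_contra h; exact hl (Function.update_of_ne h _ _)
      rw [hj', hl']
    · intro g hg
      refine Subtype.ext (funext fun j => ?_)
      change ((X j).act g).f n (Function.update (fun j => (X j).pt n) i z.1 j) =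
        Function.update (fun j => (X j).pt n) i z.1 j
      by_cases hj : j = i
      · subst hj
        rw [Function.update_self]
        exact z.2 g hg
      · rw [Function.update_of_ne hj, ((X j).act g).f_pt]
    · intro n
      refine Subtype.ext (Subtype.ext (funext fun j => ?_))
      exact congrFun (Function.update_eq_self i fun j => (X j).pt n) j
    · intro m n a z
      refine Subtype.ext (Subtype.ext (funext fun j => ?_))
      change Function.update (fun j => (X j).pt m) i ((X i).op a z.1) j =
        (X j).op a (Function.update (fun j => (X j).pt n) i z.1 j)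
      by_cases hj : j = i
      · subst hj
        rw [Function.update_self, Function.update_self]
      · rw [Function.update_of_ne hj, Function.update_of_ne hj, (X j).op_pt]
    · intro n z
      exact Subtype.ext (Function.update_self i z.1 (fun j => (X j).pt n))
  · intro h
    refine acyclic_of_wedge (fx (wedge X) A) (fun i => fx (X i) A) r E ?_ ?_ ?_ h
    · intro n x hx
      exact Subtype.ext (Subtype.ext (funext fun i => congrArg Subtype.val (hx i)))
    · intro n i z
      obtain ⟨x, hx, hx'⟩ := hin i n z
      exact ⟨x, Subtype.ext hx, fun j hj => Subtype.ext (hx' j hj)⟩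
    · intro n i x y hxy hx
      refine Subtype.ext (Subtype.ext (funext fun j => ?_))
      have e : x.1.1 i = y.1.1 i := congrArg Subtype.val hxy
      have hx1 : x.1.1 i ≠ (X i).pt n := fun h' => hx (Subtype.ext h')
      by_cases hj : j = i
      · subst hj; exact e
      · have h1 : x.1.1 j = (X j).pt n := by
          by_contra h'
          exact hj (x.1.2 j i h' hx1)
        have h2 : y.1.1 j = (X j).pt n := by
          by_contra h'
          exact hj (y.1.2 j i h' (e ▸ hx1))
        rw [h1, h2]

end

end Vale.Agent.P241.F
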